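import Vale.Agent.Lib.P161.Inst
import Vale.Agent.Lib.P161.Exist
import Vale.Agent.Lib.P161.NonF
import Vale.Agent.Lib.P161.Crit.Final

/-!
P161, complete answer: for every `d ≥ 3` and every `β ≥ 0` the free Ising measure on the
`d`-regular tree is a factor of IID if and only if `tanh β ≤ (d - 1)^(-1/2)`.
-/

open MeasureTheory Vale.Agent.P161

namespace Vale.Agent.Results.P161.Complete

universe u

/-- Let `G` be a `d`-regular tree, `d ≥ 3`, and let `β ≥ 0`. Then there is exactly one free
zero-field Ising measure on `G` at inverse temperature `β`, and it is a factor of IID if and only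
if `tanh β * √(d - 1) ≤ 1`. -/
theorem result (d : ℕ) (hd : 3 ≤ d) (V : Type u) (G : SimpleGraph V) [G.LocallyFinite]
    (hG : G.IsTree) (hreg : G.IsRegularOfDegree d) (β : ℝ) (hβ : 0 ≤ β) :
    (∃! μ : Measure (V → Bool), IsFreeIsing G β μ) ∧
      ∀ μ : Measure (V → Bool), IsFreeIsing G β μ →
        (IsFactorOfIID G μ ↔ Real.tanh β * Real.sqrt ((d : ℝ) - 1) ≤ 1) := by
  obtain ⟨μ, hμ⟩ := exists_isFreeIsing (β := β) hG
  refine ⟨⟨μ, hμ, fun ν hν => IsFreeIsing.unique hG hν hμ⟩, fun ν hν => ⟨fun hF => ?_, fun h => ?_⟩⟩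
  · by_contra hcon
    exact not_isFactorOfIID hG hd hreg (not_le.1 hcon) hν hF
  · rcases h.lt_or_eq with h | h
    · exact isFactorOfIID_of_subcritical hG hd hreg hβ h hν
    · exact Vale.Agent.P161.Crit.isFactorOfIID_critical ⟨hG, hd, hreg, hν, h⟩

end Vale.Agent.Results.P161.Complete
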