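import Vale.Agent.Lib.P161.Inst
import Vale.Agent.Lib.P161.NonF
import Vale.Agent.Lib.P161.Crit.Final
import Vale.Agent.Lib.P161.Draw2

/-!
P161: the set of `β ≥ 0` for which the free Ising measure on the `d`-regular tree is a factor of
IID, for every `d ≥ 3`.
-/

open MeasureTheory Vale.Agent.P161

namespace Vale.Agent.Results.P161.FactorSet

universe u

/-- Let `T` be a `d`-regular tree, `d ≥ 3`, and `o` a vertex. The set of `β ≥ 0` for which the free
Ising measure built from `o` is a factor of IID is `{β ≥ 0 : tanh β ≤ 1 / √(d - 1)}`. -/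
theorem result (d : ℕ) (hd : 3 ≤ d) (V : Type u) (T : SimpleGraph V) [T.LocallyFinite]
    (hT : T.IsTree) (hreg : T.IsRegularOfDegree d) (o : V) :
    {β : ℝ | 0 ≤ β ∧ ∃ Φ : (V → unitInterval) → V → ℤˣ, Measurable Φ ∧
      (∀ g : T ≃g T, ∀ᵐ x ∂(Measure.infinitePi fun _ : V => (volume : Measure unitInterval)),
        Φ (fun v => x (g.symm v)) = fun v => Φ x (g.symm v)) ∧
      (Measure.infinitePi fun _ : V => (volume : Measure unitInterval)).map Φ =
        freeIsingFrom hT o β} =
    {β : ℝ | 0 ≤ β ∧ Real.tanh β ≤ 1 / Real.sqrt ((d : ℝ) - 1)} := by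
  ext β
  simp only [Set.mem_ofPred_eq]
  refine and_congr_right fun hβ => ?_
  rw [fiid_iff hT o β]
  have hI : IsFreeIsing T β (isingOf T o (Real.tanh β)) := isFreeIsing_isingOf hT o
  have hpos : 0 < Real.sqrt ((d : ℝ) - 1) := by
    have : (3 : ℝ) ≤ d := by exact_mod_cast hd
    exact Real.sqrt_pos.2 (by linarith)
  rw [le_div_iff₀ hpos]
  refine ⟨fun hF => ?_, fun h => ?_⟩
  · by_contra hcon
    exact not_isFactorOfIID hT hd hreg (not_le.1 hcon) hI hF
  · rcases h.lt_or_eq with h | h
    · exact isFactorOfIID_of_subcritical hT hd hreg hβ h hI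
    · exact Vale.Agent.P161.Crit.isFactorOfIID_critical ⟨hT, hd, hreg, hI, h⟩

end Vale.Agent.Results.P161.FactorSet
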