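import Vale.Agent.Lib.P161.D3.Bridge

/-!
P161: for every `d ≥ 3`, the set of `β ≥ 0` for which the free Ising measure on the `d`-regular
tree is a factor of IID, as `{β ≥ 0 : tanh β ≤ (d - 1)^(-1/2)}` and as an explicit interval.
-/

open MeasureTheory Vale.Agent.P161

namespace Vale.Agent.Results.P161.IsingInterval

universe u

/-- Let `T` be a `d`-regular tree, `d ≥ 3`. There is a family `μ β` of measures such that, for
`β ≥ 0` and every vertex `o`, a measure is the free Ising measure built from `o` if and only if it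
is `μ β`. The set of `β ≥ 0` for which `μ β` is a factor of IID is
`{β ≥ 0 : tanh β ≤ (d - 1)^(-1/2)}`, which is the closed interval from `0` to
`(1/2) log ((√(d-1) + 1) / (√(d-1) - 1))`. -/
theorem result (d : ℕ) (hd : 3 ≤ d) (V : Type u) (T : SimpleGraph V) [T.LocallyFinite]
    (hT : T.IsTree) (hreg : T.IsRegularOfDegree d) :
    ∃ μ : ℝ → Measure (V → ℤˣ),
      (∀ (β : ℝ) (_ : 0 ≤ β) (o : V) (ν : Measure (V → ℤˣ)),
        D3.IsFreeIsing T o β ν ↔ ν = μ β) ∧
      {β : ℝ | 0 ≤ β ∧ D3.IsFactorOfIID T (μ β)} =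
        {β : ℝ | 0 ≤ β ∧ Real.tanh β ≤ ((d : ℝ) - 1) ^ (-(1 / 2) : ℝ)} ∧
      {β : ℝ | 0 ≤ β ∧ D3.IsFactorOfIID T (μ β)} =
        Set.Icc 0 (1 / 2 * Real.log ((√((d : ℝ) - 1) + 1) / (√((d : ℝ) - 1) - 1))) := by
  obtain ⟨o₀⟩ := hT.connected.nonempty
  have hd3 : (3 : ℝ) ≤ d := by exact_mod_cast hd
  have hx : (1 : ℝ) < (d : ℝ) - 1 := by linarith
  have hr : 1 < √((d : ℝ) - 1) := by
    have h := Real.sqrt_lt_sqrt zero_le_one hx
    rwa [Real.sqrt_one] at h
  refine ⟨fun β => freeIsingFrom hT o₀ β, fun β _ o ν => D3.isFreeIsing_iff hT o o₀ β ν, ?_, ?_⟩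
  · ext β
    simp only [Set.mem_ofPred_eq]
    refine and_congr_right fun hβ => ?_
    rw [D3.isFactorOfIID_iff hd hT hreg o₀ hβ, D3.rpow_eq (by linarith), le_div_iff₀ (by linarith)]
  · ext β
    simp only [Set.mem_ofPred_eq, Set.mem_Icc]
    refine and_congr_right fun hβ => ?_
    rw [D3.isFactorOfIID_iff hd hT hreg o₀ hβ, D3.tanh_le_iff hr]

end Vale.Agent.Results.P161.IsingInterval
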